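import Vale.Agent.P321.R4.H101.Spec

/-! # Row R1: the two differences of the cells with a constant polynomial in `1 / q`

The proofs of `dom_f`, `dom_e` of `P321/Bdl/B6` with the constants written out. -/

namespace Vale.Agent.P321.R4.H257

open Finset
open MA (ev le Prob Dom)
open Vale.Agent.P321.Lt Vale.Agent.P321.Smooth

/-- First difference, explicit constant. -/
theorem dom_f' {q : ℝ} (h0 : 0 < q) (h1 : q < 1) (L : ℕ) (hL : 1 ≤ L) :
    Dom ((1 / 2 : ℝ) • (cell q (L + 1) (L - 1) - cell q (L - 1) (L + 1))) (U q ^ (2 * L + 1))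
      (2 * ((1 + q) / q) * (2 * (2 * q ^ 2 * (1 - q ^ 2) / 6) ^ (-(3 / 2) : ℝ))
        * (L : ℝ) ^ (-(3 / 2) : ℝ)) := by
  have hr0 : 0 < q ^ 2 := by (clear * - h0; positivity)
  have hr1 : q ^ 2 < 1 := by nlinarith only [h1, h0]
  have hr : 0 < 1 - q ^ 2 := by linarith only [hr1]
  have hβ0 : 0 < 2 * q ^ 2 * (1 - q ^ 2) := by (clear * - h0 hr; positivity)
  have hβ1 : 2 * q ^ 2 * (1 - q ^ 2) ≤ 1 := by linarith only [sq_nonneg (2 * q ^ 2 - 1)]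
  set β := 2 * q ^ 2 * (1 - q ^ 2) with hβ
  have hD : 0 ≤ 2 * ((1 + q) / q) := by (clear * - h0; positivity)
  obtain ⟨N, rfl⟩ : ∃ N, L = N + 1 := ⟨L - 1, by omega⟩
  have h := first_diff (prob_v h0.le h1.le) (aug_letter h0 h1) hD (dom_letter h0 h1) hr0.le hr1
    (U := U q) rfl N
  have e : cell q (N + 1 + 1) (N + 1 - 1) - cell q (N + 1 - 1) (N + 1 + 1)
      = U q ^ (N + 2) * ((1 - q) • (sg 0 - v q)) * U q ^ N
        - U q ^ N * ((1 - q) • (sg 0 - v q)) * U q ^ (N + 2) := by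
    rw [cell_split, cell_split, Nat.add_sub_cancel, show N + 1 + 1 = N + 2 by rfl,
      show N + 2 + N = N + (N + 2) by ring]
    abel
  rw [e, show 2 * (N + 1) + 1 = 2 * N + 3 by ring]
  refine h.mono (MA.nonneg_pow (prob_U h0.le h1.le).1 _) ?_
  have h2 := cN_E1 hβ0 hβ1 N
  have h3 : (0 : ℝ) < (N : ℝ) + 1 := by (clear * -; positivity)
  rw [Real.mul_rpow (by (clear * - hβ0; positivity)) h3.le] at h2
  push_cast
  calc 2 * ((1 + q) / q) * cN β N (fun J => 2 * cb J / (J + 1))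
      ≤ 2 * ((1 + q) / q) * (2 * ((β / 6) ^ (-(3 / 2) : ℝ) * ((N : ℝ) + 1) ^ (-(3 / 2) : ℝ))) :=
        mul_le_mul_of_nonneg_left h2 hD
    _ = _ := by ring

/-- Second difference, explicit constant. -/
theorem dom_e' {q : ℝ} (h0 : 0 < q) (h1 : q < 1) (L : ℕ) (hL : 1 ≤ L) :
    Dom ((1 / 2 : ℝ) • (cell q (L + 1) (L - 1) + cell q (L - 1) (L + 1)) - cell q L L)
      (U q ^ (2 * L + 1))
      (2 * ((1 + q) / q) * (12 * (2 * q ^ 2 * (1 - q ^ 2) / 6) ^ (-(5 / 2) : ℝ))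
        * (L : ℝ) ^ (-(5 / 2) : ℝ)) := by
  have hr0 : 0 < q ^ 2 := by (clear * - h0; positivity)
  have hr1 : q ^ 2 < 1 := by nlinarith only [h1, h0]
  have hr : 0 < 1 - q ^ 2 := by linarith only [hr1]
  have hβ0 : 0 < 2 * q ^ 2 * (1 - q ^ 2) := by (clear * - h0 hr; positivity)
  have hβ1 : 2 * q ^ 2 * (1 - q ^ 2) ≤ 1 := by linarith only [sq_nonneg (2 * q ^ 2 - 1)]
  set β := 2 * q ^ 2 * (1 - q ^ 2) with hβ
  have hD : 0 ≤ 2 * ((1 + q) / q) := by (clear * - h0; positivity)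
  obtain ⟨N, rfl⟩ : ∃ N, L = N + 1 := ⟨L - 1, by omega⟩
  have h := second_diff (prob_v h0.le h1.le) (aug_letter h0 h1) hD (dom_letter h0 h1) hr0.le hr1
    (U := U q) rfl N
  have e : (1 / 2 : ℝ) • (cell q (N + 1 + 1) (N + 1 - 1) + cell q (N + 1 - 1) (N + 1 + 1))
        - cell q (N + 1) (N + 1)
      = (1 / 2 : ℝ) • (U q ^ (N + 2) * ((1 - q) • (sg 0 - v q)) * U q ^ N
        + U q ^ N * ((1 - q) • (sg 0 - v q)) * U q ^ (N + 2))
        - U q ^ (N + 1) * ((1 - q) • (sg 0 - v q)) * U q ^ (N + 1) := by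
    rw [cell_split, cell_split, cell_split, Nat.add_sub_cancel, show N + 1 + 1 = N + 2 by rfl,
      show N + 2 + N = 2 * N + 2 by ring, show N + (N + 2) = 2 * N + 2 by ring,
      show N + 1 + (N + 1) = 2 * N + 2 by ring]
    generalize (q • (1 : LA) + (1 - q) • v q) * U q ^ (2 * N + 2) = A
    generalize U q ^ (N + 2) * ((1 - q) • (sg 0 - v q)) * U q ^ N = B
    generalize U q ^ N * ((1 - q) • (sg 0 - v q)) * U q ^ (N + 2) = C
    generalize U q ^ (N + 1) * ((1 - q) • (sg 0 - v q)) * U q ^ (N + 1) = F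
    module
  rw [e, show 2 * (N + 1) + 1 = 2 * N + 3 by ring]
  refine h.mono (MA.nonneg_pow (prob_U h0.le h1.le).1 _) ?_
  have h2 := cN_E2 hβ0 hβ1 N
  have h3 : (0 : ℝ) < (N : ℝ) + 1 := by (clear * -; positivity)
  rw [Real.mul_rpow (by (clear * - hβ0; positivity)) h3.le] at h2
  push_cast
  calc 2 * ((1 + q) / q) * cN β N (fun J => 12 * cb J / ((J + 1) * (J + 2)))
      ≤ 2 * ((1 + q) / q) * (12 * ((β / 6) ^ (-(5 / 2) : ℝ) * ((N : ℝ) + 1) ^ (-(5 / 2) : ℝ))) :=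
        mul_le_mul_of_nonneg_left h2 hD
    _ = _ := by ring

/-- the base of the power is at least `(q / 2) ^ 2` -/
theorem base_ge {q : ℝ} (h0 : 0 < q) (h1 : q ≤ 1 / 2) :
    (q / 2) ^ 2 ≤ 2 * q ^ 2 * (1 - q ^ 2) / 6 := by
  have h2 : q ^ 2 ≤ 1 / 4 := by nlinarith only [h0, h1]
  have h3 : 0 ≤ q ^ 2 * (1 / 4 - q ^ 2) := mul_nonneg (sq_nonneg q) (by linarith only [h2])
  nlinarith only [h3]

theorem pow_le {q : ℝ} (h0 : 0 < q) (h1 : q ≤ 1 / 2) (k : ℕ) :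
    (2 * q ^ 2 * (1 - q ^ 2) / 6) ^ (-((k : ℝ) / 2)) ≤ (2 / q) ^ k := by
  have hp : 0 < q / 2 := by linarith only [h0]
  have hk : (0 : ℝ) ≤ (k : ℝ) := Nat.cast_nonneg k
  have h2 : (2 * q ^ 2 * (1 - q ^ 2) / 6) ^ (-((k : ℝ) / 2)) ≤ ((q / 2) ^ 2) ^ (-((k : ℝ) / 2)) :=
    Real.rpow_le_rpow_of_nonpos (pow_pos hp 2) (base_ge h0 h1) (by linarith only [hk])
  refine h2.trans (le_of_eq ?_)
  rw [← Real.rpow_natCast (q / 2) 2, ← Real.rpow_mul hp.le,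
    show ((2 : ℕ) : ℝ) * (-((k : ℝ) / 2)) = -(k : ℝ) by push_cast; ring,
    Real.rpow_neg hp.le, Real.rpow_natCast, ← inv_pow, inv_div]

theorem const_f {q : ℝ} (h0 : 0 < q) (h1 : q ≤ 1 / 2) :
    2 * ((1 + q) / q) * (2 * (2 * q ^ 2 * (1 - q ^ 2) / 6) ^ (-(3 / 2) : ℝ)) ≤ H101.Pq 6 q := by
  have h2 := pow_le h0 h1 3
  push_cast at h2
  have h3 : 2 * ((1 + q) / q) ≤ 3 / q := by
    rw [← mul_div_assoc]
    exact div_le_div_of_nonneg_right (by linarith only [h1]) h0.le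
  have h4 : (0 : ℝ) ≤ 3 / q := by positivity
  have h5 : (0 : ℝ) ≤ 2 * (2 * q ^ 2 * (1 - q ^ 2) / 6) ^ (-(3 / 2) : ℝ) := by
    have : 0 ≤ 2 * q ^ 2 * (1 - q ^ 2) / 6 := le_trans (by positivity) (base_ge h0 h1)
    positivity
  calc 2 * ((1 + q) / q) * (2 * (2 * q ^ 2 * (1 - q ^ 2) / 6) ^ (-(3 / 2) : ℝ))
      ≤ 3 / q * (2 * (2 / q) ^ 3) := mul_le_mul h3 (by linarith only [h2]) h5 h4
    _ = 48 / q ^ 4 := by field_simp; norm_num
    _ ≤ 46656 / q ^ 6 := by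
      rw [div_le_div_iff₀ (by positivity) (by positivity)]
      have h6 : 0 < q ^ 4 := by positivity
      have h7 : q ^ 2 ≤ 1 := by nlinarith only [h0, h1]
      nlinarith only [h6, h7, mul_le_mul_of_nonneg_left h7 h6.le]
    _ = H101.Pq 6 q := by
      rw [H101.Pq, div_pow]
      norm_num

theorem const_e {q : ℝ} (h0 : 0 < q) (h1 : q ≤ 1 / 2) :
    2 * ((1 + q) / q) * (12 * (2 * q ^ 2 * (1 - q ^ 2) / 6) ^ (-(5 / 2) : ℝ)) ≤ H101.Pq 6 q := by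
  have h2 := pow_le h0 h1 5
  push_cast at h2
  have h3 : 2 * ((1 + q) / q) ≤ 3 / q := by
    rw [← mul_div_assoc]
    exact div_le_div_of_nonneg_right (by linarith only [h1]) h0.le
  have h4 : (0 : ℝ) ≤ 3 / q := by positivity
  have h5 : (0 : ℝ) ≤ 12 * (2 * q ^ 2 * (1 - q ^ 2) / 6) ^ (-(5 / 2) : ℝ) := by
    have : 0 ≤ 2 * q ^ 2 * (1 - q ^ 2) / 6 := le_trans (by positivity) (base_ge h0 h1)
    positivity
  calc 2 * ((1 + q) / q) * (12 * (2 * q ^ 2 * (1 - q ^ 2) / 6) ^ (-(5 / 2) : ℝ))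
      ≤ 3 / q * (12 * (2 / q) ^ 5) := mul_le_mul h3 (by linarith only [h2]) h5 h4
    _ = 1152 / q ^ 6 := by field_simp; norm_num
    _ ≤ 46656 / q ^ 6 := div_le_div_of_nonneg_right (by norm_num) (by positivity)
    _ = H101.Pq 6 q := by
      rw [H101.Pq, div_pow]
      norm_num

/-- **Row R1.** -/
theorem stDom : H101.StDom := by
  refine ⟨6, by norm_num, fun q h0 h1 L hL => ⟨?_, ?_⟩⟩
  · exact (dom_f' h0 (by linarith only [h1]) L hL).mono
      (MA.nonneg_pow (prob_U h0.le (by linarith only [h1])).1 _)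
      (mul_le_mul_of_nonneg_right (const_f h0 h1) (Real.rpow_nonneg (Nat.cast_nonneg L) _))
  · exact (dom_e' h0 (by linarith only [h1]) L hL).mono
      (MA.nonneg_pow (prob_U h0.le (by linarith only [h1])).1 _)
      (mul_le_mul_of_nonneg_right (const_e h0 h1) (Real.rpow_nonneg (Nat.cast_nonneg L) _))

end Vale.Agent.P321.R4.H257
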